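import Vale.Agent.P146.Div.Min.Basic

/-!
A minimiser of the functional with strictly increasing exponents and path.
-/

noncomputable section

open MeasureTheory ProbabilityTheory Filter Topology
open scoped BigOperators

namespace Vale.Agent.P146.Div.Min

open Vale.Agent.P157.Parisi (level layer level_cons_zero)
open Vale.Agent.P157.Parisi.Full (logCosh)
open Vale.Agent.P157.Parisi.Full.Concave (good_level good_logCosh den den_pos layer_eq_log)

variable {X : Type*} [TopologicalSpace X] [FirstCountableTopology X]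

/-- The recursion is continuous in its exponents, its path and the field. -/
lemma continuous_level : ∀ {r : ℕ} (m : X → Fin r → ℝ) (ρ : X → Fin (r + 1) → ℝ),
    Continuous m → Continuous ρ → (∀ x i, 0 < m x i) →
      Continuous fun z : X × ℝ => level (m z.1) (ρ z.1) logCosh 0 z.2 := by
  intro r
  induction r with
  | zero => exact fun _ _ _ _ _ => good_logCosh.lip.continuous.comp continuous_snd
  | succ r ih =>
    intro m ρ hm hρ hpos
    set G := fun x => level (Fin.tail (m x)) (Fin.tail (ρ x)) logCosh 0 with hG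
    have hc : Continuous fun z : X × ℝ => G z.1 z.2 :=
      ih (fun x => Fin.tail (m x)) (fun x => Fin.tail (ρ x))
        (continuous_pi fun i => (continuous_apply i.succ).comp hm)
        (continuous_pi fun i => (continuous_apply i.succ).comp hρ) fun x i => hpos x i.succ
    have hL : ∀ x, Vale.Agent.P157.Parisi.Up.Lip1 (G x) := fun x =>
      (good_level (fun i => hpos x i.succ) (Fin.tail (ρ x)) 0).lip
    have hμ : Continuous fun x => m x 0 := (continuous_apply 0).comp hm
    set d := fun x => Real.sqrt (ρ x 1 - ρ x 0) with hd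
    have hdc : Continuous d :=
      (((continuous_apply (1 : Fin (r + 2))).comp hρ).sub ((continuous_apply 0).comp hρ)).sqrt
    have hN : Continuous fun z : X × ℝ => den (m z.1 0) (ρ z.1 1 - ρ z.1 0) (G z.1) z.2 := by
      refine continuous_iff_continuousAt.2 fun z₀ => ?_
      have e1 : ∀ᶠ z : X × ℝ in 𝓝 z₀, |G z.1 0| < |G z₀.1 0| + 1 :=
        ((hc.comp (continuous_fst.prodMk continuous_const)).abs.tendsto z₀).eventually_lt_const
          (lt_add_one _)
      have e2 : ∀ᶠ z : X × ℝ in 𝓝 z₀, m z.1 0 < m z₀.1 0 + 1 :=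
        ((hμ.comp continuous_fst).tendsto z₀).eventually_lt_const (lt_add_one _)
      have e3 : ∀ᶠ z : X × ℝ in 𝓝 z₀, |z.2| < |z₀.2| + 1 :=
        (continuous_snd.abs.tendsto z₀).eventually_lt_const (lt_add_one _)
      have e4 : ∀ᶠ z : X × ℝ in 𝓝 z₀, d z.1 < d z₀.1 + 1 :=
        ((hdc.comp continuous_fst).tendsto z₀).eventually_lt_const (lt_add_one _)
      refine continuousAt_of_dominated (bound := fun g => Real.exp ((m z₀.1 0 + 1) *
          ((|G z₀.1 0| + 1) + (|z₀.2| + 1))) * Real.exp ((m z₀.1 0 + 1) * (d z₀.1 + 1) * |g|)) ?_ ?_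
        ((Vale.Agent.P157.Parisi.Site.integrable_exp_abs _).const_mul _)
        (Eventually.of_forall fun g => ?_)
      · exact Eventually.of_forall fun z => (Continuous.rexp (continuous_const.mul
          ((hL z.1).continuous.comp (by fun_prop)))).aestronglyMeasurable
      · filter_upwards [e1, e2, e3, e4] with z h1 h2 h3 h4
        refine Eventually.of_forall fun g => ?_
        rw [Real.norm_eq_abs, abs_of_pos (Real.exp_pos _), ← Real.exp_add]
        refine Real.exp_le_exp.2 ?_
        have hgr := hL z.1 (z.2 + d z.1 * g) 0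
        rw [sub_zero] at hgr
        have hy : |z.2 + d z.1 * g| ≤ |z₀.2| + 1 + (d z₀.1 + 1) * |g| := by
          refine (abs_add_le _ _).trans (add_le_add h3.le ?_)
          rw [abs_mul, abs_of_nonneg (Real.sqrt_nonneg _)]
          exact mul_le_mul_of_nonneg_right h4.le (abs_nonneg g)
        have hb : G z.1 (z.2 + d z.1 * g) ≤
            (|G z₀.1 0| + 1) + (|z₀.2| + 1) + (d z₀.1 + 1) * |g| := by
          linarith [le_abs_self (G z.1 (z.2 + d z.1 * g) - G z.1 0), le_abs_self (G z.1 0)]
        have hd0 : 0 ≤ d z₀.1 := Real.sqrt_nonneg _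
        calc m z.1 0 * G z.1 (z.2 + d z.1 * g)
            ≤ m z.1 0 * ((|G z₀.1 0| + 1) + (|z₀.2| + 1) + (d z₀.1 + 1) * |g|) :=
              mul_le_mul_of_nonneg_left hb (hpos z.1 0).le
          _ ≤ (m z₀.1 0 + 1) * ((|G z₀.1 0| + 1) + (|z₀.2| + 1) + (d z₀.1 + 1) * |g|) :=
              mul_le_mul_of_nonneg_right h2.le (by positivity)
          _ = _ := by ring
      · exact ((hμ.comp continuous_fst).mul (hc.comp (continuous_fst.prodMk
          (continuous_snd.add ((hdc.comp continuous_fst).mul continuous_const))))).rexp.continuousAt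
    show Continuous fun z : X × ℝ => level (m z.1) (ρ z.1) logCosh 0 z.2
    simp only [level_cons_zero, layer_eq_log]
    exact (continuous_const.div (hμ.comp continuous_fst) fun z => (hpos z.1 0).ne').mul
      (hN.log fun z => (den_pos (hpos z.1 0).le (hL z.1) z.2).ne')

/-- The parameters with exponents in `[η, 1 - η]` and a path in `[0, 1]` with root zero. -/
def box (η : ℝ) (r : ℕ) : Set ((Fin r → ℝ) × (Fin (r + 1) → ℝ)) :=
  {x | Monotone x.1 ∧ Monotone x.2 ∧ x.2 0 = 0 ∧ (∀ i, x.1 i ∈ Set.Icc η (1 - η)) ∧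
    ∀ p, x.2 p ∈ Set.Icc (0 : ℝ) 1}

lemma isCompact_box (η : ℝ) (r : ℕ) : IsCompact (box η r) := by
  refine IsCompact.of_isClosed_subset (((isCompact_univ_pi fun _ : Fin r => isCompact_Icc
    (a := η) (b := 1 - η)).prod (isCompact_univ_pi fun _ : Fin (r + 1) => isCompact_Icc
    (a := (0 : ℝ)) (b := 1)))) ?_ fun x hx => ⟨fun i _ => hx.2.2.2.1 i, fun p _ => hx.2.2.2.2 p⟩
  have c1 : ∀ i, Continuous fun x : (Fin r → ℝ) × (Fin (r + 1) → ℝ) => x.1 i := fun i =>
    (continuous_apply i).comp continuous_fst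
  have c2 : ∀ i, Continuous fun x : (Fin r → ℝ) × (Fin (r + 1) → ℝ) => x.2 i := fun i =>
    (continuous_apply i).comp continuous_snd
  simp only [box, Monotone, Set.mem_Icc, Set.ofPred_and, Set.ofPred_forall]
  exact ((isClosed_iInter fun i => isClosed_iInter fun j => isClosed_iInter fun _ =>
      isClosed_le (c1 i) (c1 j)).inter ((isClosed_iInter fun i => isClosed_iInter fun j =>
      isClosed_iInter fun _ => isClosed_le (c2 i) (c2 j)).inter ((isClosed_eq (c2 0)
      continuous_const).inter ((isClosed_iInter fun i => (isClosed_le continuous_const (c1 i)).inter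
      (isClosed_le (c1 i) continuous_const)).inter (isClosed_iInter fun i =>
      (isClosed_le continuous_const (c2 i)).inter (isClosed_le (c2 i) continuous_const))))))

variable {β η : ℝ}

/-- The functional has a minimum on a box. -/
lemma exists_min (hη : 0 < η) {r : ℕ} {x : (Fin r → ℝ) × (Fin (r + 1) → ℝ)}
    (hx : x ∈ box η r) : ∃ y ∈ box η r, ∀ z ∈ box η r, val β y.1 y.2 ≤ val β z.1 z.2 := by
  suffices hcont : ContinuousOn (fun z : (Fin r → ℝ) × (Fin (r + 1) → ℝ) => val β z.1 z.2)
      (box η r) by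
    exact (isCompact_box η r).exists_isMinOn ⟨x, hx⟩ hcont
  rw [continuousOn_iff_continuous_domRestrict]
  have hq : ∀ p, Continuous fun z : box η r => z.1.2 p := fun p =>
    (continuous_apply p).comp (continuous_snd.comp continuous_subtype_val)
  have hl := (continuous_level (fun z : box η r => z.1.1) (fun z p => β ^ 2 * z.1.2 p)
    (continuous_fst.comp continuous_subtype_val)
    (continuous_pi fun p => continuous_const.mul (hq p))
    fun z i => hη.trans_le (z.2.2.2.2.1 i).1).comp (continuous_id.prodMk (continuous_const (y := 0)))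
  have hm : ∀ i, Continuous fun z : box η r => z.1.1 i := fun i =>
    (continuous_apply i).comp (continuous_fst.comp continuous_subtype_val)
  show Continuous fun z : box η r => val β z.1.1 z.1.2
  unfold val
  exact ((continuous_const.add hl).sub ((continuous_const.mul (hq _)).div_const 2)).add
    (continuous_const.mul ((continuous_const.add ((hq _).pow 2)).sub
      (continuous_finsetSum _ fun i _ => (hm i).mul (((hq _).pow 2).sub ((hq _).pow 2)))))

lemma val_eq_jump (β : ℝ) {r : ℕ} (m : Fin r → ℝ) (q : Fin (r + 1) → ℝ) :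
    val β m q = Real.log 2 + level m (fun p => β ^ 2 * q p) logCosh 0 0 -
      β ^ 2 * q (Fin.last r) / 2 +
        β ^ 2 / 4 * (1 + q (Fin.last r) ^ 2 - jump (fun y => y ^ 2) m q) :=
  rfl

lemma mem_box_comp {r : ℕ} {x : (Fin (r + 1) → ℝ) × (Fin (r + 2) → ℝ)} (hx : x ∈ box η (r + 1))
    (i : Fin (r + 1)) {j : Fin (r + 2)} (hj : j ≠ 0) :
    (x.1 ∘ i.succAbove, x.2 ∘ j.succAbove) ∈ box η r := by
  obtain ⟨h1, h2, h0, hm, hq⟩ := hx
  refine ⟨h1.comp (Fin.strictMono_succAbove i).monotone,
    h2.comp (Fin.strictMono_succAbove j).monotone, ?_, fun _ => hm _, fun _ => hq _⟩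
  obtain ⟨j, rfl⟩ := Fin.exists_succ_eq.2 hj
  show x.2 (j.succ.succAbove 0) = 0
  rw [Fin.succ_succAbove_zero, h0]

/-- Below every point there is a minimiser of its box with strict monotonicity. -/
lemma exists_strict (hη : 0 < η) :
    ∀ {r : ℕ} {x : (Fin r → ℝ) × (Fin (r + 1) → ℝ)}, x ∈ box η r →
      ∃ (s : ℕ) (y : (Fin s → ℝ) × (Fin (s + 1) → ℝ)), y ∈ box η s ∧ StrictMono y.1 ∧
        StrictMono y.2 ∧ val β y.1 y.2 ≤ val β x.1 x.2 ∧
          ∀ z ∈ box η s, val β y.1 y.2 ≤ val β z.1 z.2 := by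
  intro r
  induction r with
  | zero =>
    intro x hx
    obtain ⟨y, hy, hmin⟩ := exists_min (β := β) hη hx
    exact ⟨0, y, hy, fun a => a.elim0, fun a b h => absurd h (by simp [Fin.eq_zero a, Fin.eq_zero b]),
      hmin x hx, hmin⟩
  | succ r ih =>
    intro x hx
    obtain ⟨y, hy, hmin⟩ := exists_min (β := β) hη hx
    by_cases hs : StrictMono y.1 ∧ StrictMono y.2
    · exact ⟨r + 1, y, hy, hs.1, hs.2, hmin x hx, hmin⟩
    suffices h : ∃ w ∈ box η r, val β w.1 w.2 = val β y.1 y.2 by
      obtain ⟨w, hw, he⟩ := h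
      obtain ⟨s, v, h1, h2, h3, h4, h5⟩ := ih hw
      exact ⟨s, v, h1, h2, h3, (h4.trans_eq he).trans (hmin x hx), h5⟩
    have hy' := hy
    obtain ⟨h1, h2, -, hm, -⟩ := hy'
    have hpos : ∀ i, 0 < y.1 i := fun i => hη.trans_le (hm i).1
    rcases not_and_or.1 hs with hs | hs <;> rw [Fin.strictMono_iff_lt_succ] at hs <;>
      obtain ⟨i, hi⟩ := not_forall.1 hs
    · have he : y.1 i.castSucc = y.1 i.succ :=
        le_antisymm (h1 (Fin.castSucc_le_succ i)) (not_lt.1 hi)
      refine ⟨_, mem_box_comp hy i.succ (j := i.castSucc.succ) (Fin.succ_ne_zero _), ?_⟩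
      have hl : i.castSucc.succ.succAbove (Fin.last r) = Fin.last (r + 1) := by
        refine Fin.succAbove_ne_last_last ?_
        rw [Fin.succ_castSucc]
        exact (Fin.castSucc_lt_last _).ne
      obtain ⟨e1, -⟩ := del_m y.1 (fun p => β ^ 2 * y.2 p) i hpos (fun i => (hm i).2.trans (by linarith))
        (fun a b h => mul_le_mul_of_nonneg_left (h2 h) (sq_nonneg β)) he
      obtain ⟨-, e3⟩ := del_m y.1 y.2 i hpos (fun i => (hm i).2.trans (by linarith)) h2 he
      show val β (y.1 ∘ i.succ.succAbove) (y.2 ∘ i.castSucc.succ.succAbove) = _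
      rw [val_eq_jump, val_eq_jump, e3, Function.comp_apply, hl,
        show (fun p => β ^ 2 * (y.2 ∘ i.castSucc.succ.succAbove) p) =
          (fun p => β ^ 2 * y.2 p) ∘ i.castSucc.succ.succAbove from rfl, e1]
    · have he : y.2 i.castSucc = y.2 i.succ :=
        le_antisymm (h2 (Fin.castSucc_le_succ i)) (not_lt.1 hi)
      refine ⟨_, mem_box_comp hy i (j := i.succ) (Fin.succ_ne_zero _), ?_⟩
      obtain ⟨e1, -, -⟩ := del_q y.1 (fun p => β ^ 2 * y.2 p) logCosh i (fun i => (hpos i).ne')
        (by simp [he])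
      obtain ⟨-, e2, e3⟩ := del_q y.1 y.2 logCosh i (fun i => (hpos i).ne') he
      show val β (y.1 ∘ i.succAbove) (y.2 ∘ i.succ.succAbove) = _
      rw [val_eq_jump, val_eq_jump, e3, Function.comp_apply, e2,
        show (fun p => β ^ 2 * (y.2 ∘ i.succ.succAbove) p) =
          (fun p => β ^ 2 * y.2 p) ∘ i.succ.succAbove from rfl, e1]

end Vale.Agent.P146.Div.Min
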