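import Vale.Agent.P146.Div.Defs
import Vale.Agent.P157.Full.Deriv
import Vale.Agent.P157.Full.Concave.Main

/-!
The second derivative of the recursion at the root, and the derivative of a step in its exponent.
-/

noncomputable section

open MeasureTheory ProbabilityTheory Filter Topology
open scoped BigOperators

namespace Vale.Agent.P146.Div.Min

open Vale.Agent.P157.Parisi (level layer tilt weight siteValue level_cons_zero down_cons_succ down_zero
  down_cons_zero)
open Vale.Agent.P157.Parisi.Full (logCosh siteSlope hasDerivAt_tanh' sq_tanh_le_one)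
open Vale.Agent.P157.Parisi.Full.Concave (good_level)
open Vale.Agent.P157.Parisi.Full.Deriv (Fam Bc wts wts_succ tl)
open Vale.Agent.P157.Parisi.Full.Deriv renaming sq → dsq


lemma sum_wts {r : ℕ} (M : ℝ) (m : Fin r → ℝ) (S : Fin (r + 1) → ℝ) :
    ∑ p, wts M m p * S p = ∑ p, weight m p * S p - M * S 0 := by
  simp only [wts, weight, sub_mul, Finset.sum_sub_distrib]
  rw [Fin.sum_univ_succ (f := fun p => (Fin.cons M m : Fin (r + 1) → ℝ) p * S p),
    Fin.sum_univ_succ (f := fun p => (Fin.cons 0 m : Fin (r + 1) → ℝ) p * S p)]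
  simp only [Fin.cons_zero, Fin.cons_succ]
  ring

/-- The derivatives of the recursion at the root. -/
theorem level_fam : ∀ {r : ℕ} {m : Fin r → ℝ}, (∀ i, 0 < m i) → ∀ ρ : Fin (r + 1) → ℝ,
    ∃ (L : ℝ) (G1 G2 : ℝ → ℝ), Fam L (fun _ => level m ρ logCosh 0) (fun _ => G1) (fun _ => G2)
      (fun _ _ => 0) ∧ (∀ p, Bc (dsq m ρ logCosh p)) ∧
        ∀ x, G2 x = 1 - ∑ p, weight m p * dsq m ρ logCosh p x := by
  intro r
  induction r with
  | zero =>
    intro m _ ρ
    have hcont : Continuous Real.tanh :=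
      continuous_iff_continuousAt.2 fun x => (hasDerivAt_tanh' x).continuousAt
    have hlc : Continuous logCosh := continuous_iff_continuousAt.2 fun x =>
      (Vale.Agent.P157.Parisi.Full.hasDerivAt_logCosh x).continuousAt
    have hd : deriv logCosh = Real.tanh :=
      funext fun x => (Vale.Agent.P157.Parisi.Full.hasDerivAt_logCosh x).deriv
    refine ⟨1, Real.tanh, fun x => 1 - Real.tanh x ^ 2,
      ⟨zero_le_one, hlc.comp continuous_snd, hcont.comp continuous_snd,
      show Continuous fun p : ℝ × ℝ => 1 - Real.tanh p.2 ^ 2 from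
        continuous_const.sub ((hcont.comp continuous_snd).pow 2), continuousOn_const,
      fun _ x => Vale.Agent.P157.Parisi.Full.hasDerivAt_logCosh x, fun _ x => hasDerivAt_tanh' x,
      fun t _ x => hasDerivAt_const t _, fun _ x => sq_le_one_iff_abs_le_one _ |>.1 (sq_tanh_le_one x),
      fun _ x => by
        rw [abs_le]; constructor <;> nlinarith [sq_tanh_le_one x, sq_nonneg (Real.tanh x)],
      fun _ _ _ => by simp⟩, fun p => ?_, fun x => ?_⟩
    · show Bc fun y => deriv logCosh y ^ 2
      rw [hd]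
      exact ⟨hcont.pow 2, 1, fun y => by rw [abs_of_nonneg (sq_nonneg _)]; exact sq_tanh_le_one y⟩
    · have hw : weight m (0 : Fin 1) = 1 := by simp [weight, Fin.snoc]
      rw [Fin.sum_univ_one, hw]
      show _ = 1 - 1 * deriv logCosh x ^ 2
      rw [hd, one_mul]
  | succ r ih =>
    intro m hm ρ
    obtain ⟨L, G1, G2, hF, hbc, hid⟩ := ih (m := Fin.tail m) (fun i => hm i.succ) (Fin.tail ρ)
    set d := ρ 1 - ρ 0
    set F := level (Fin.tail m) (Fin.tail ρ) logCosh 0
    obtain ⟨L', hS⟩ := hF.step (δ := fun _ => d) (d := 0) (hm 0)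
      ⟨continuous_const, fun t _ => ⟨by simpa using hasDerivAt_const t (Real.sqrt d), by simp⟩,
        by simp [continuousOn_const]⟩
    set H1 : ℝ → ℝ := fun x => tilt (m 0) d F G1 x
    set H2 : ℝ → ℝ := fun x =>
      tilt (m 0) d F (fun y => G2 y + m 0 * G1 y ^ 2) x - m 0 * tilt (m 0) d F G1 x ^ 2
    have hlev : level m ρ logCosh 0 = layer (m 0) d F := level_cons_zero m ρ logCosh
    have hFam : Fam L' (fun _ => level m ρ logCosh 0) (fun _ => H1) (fun _ => H2) (fun _ _ => 0) := by
      rw [hlev]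
      exact ⟨hS.nn, hS.c0, hS.c1, hS.c2, continuousOn_const, hS.d1, hS.d2,
        fun t _ x => hasDerivAt_const t _, hS.b1, hS.b2, fun _ _ _ => by simpa using hS.nn⟩
    have hd1 : deriv (level m ρ logCosh 0) = H1 := funext fun y => (hFam.d1 0 y).deriv
    have hd0 : deriv F = G1 := funext fun y => (hF.d1 0 y).deriv
    have hz : dsq m ρ logCosh 0 = fun y => H1 y ^ 2 := by
      show Vale.Agent.P157.Parisi.down m ρ logCosh 0 (fun y => deriv (level m ρ logCosh 0) y ^ 2) = _
      rw [down_zero, hd1]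
    have hs : ∀ p, dsq m ρ logCosh (Fin.succ p) =
        tilt (m 0) d F (dsq (Fin.tail m) (Fin.tail ρ) logCosh p) := fun p => rfl
    refine ⟨L', H1, H2, hFam, fun p => ?_, fun x => ?_⟩
    · cases p using Fin.cases with
      | zero => rw [hz]; exact hFam.bc1sq 0
      | succ p => rw [hs p]; exact hF.bc_tilt (hm 0).le continuous_const 0 (hbc p)
    · have e : (fun y => G2 y + m 0 * G1 y ^ 2) = fun y => 0 * dsq (Fin.tail m) (Fin.tail ρ) logCosh 0 y +
          (-1) * ∑ p, wts (m 0) (Fin.tail m) p * dsq (Fin.tail m) (Fin.tail ρ) logCosh p y + 1 := by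
        funext y
        rw [sum_wts, hid y, show dsq (Fin.tail m) (Fin.tail ρ) logCosh 0 y = G1 y ^ 2 by
          show Vale.Agent.P157.Parisi.down (Fin.tail m) (Fin.tail ρ) logCosh 0 (fun y => deriv F y ^ 2) y = _
          rw [down_zero, hd0]]
        ring
      have hc := hF.tilt_combine (δ := fun _ => d) (hm 0).le continuous_const 0 x 0 (-1) 1
        (wts (m 0) (Fin.tail m)) (hbc 0) hbc
      show tilt (m 0) d F (fun y => G2 y + m 0 * G1 y ^ 2) x - m 0 * H1 x ^ 2 = _
      rw [e, hc, Fin.sum_univ_succ (f := fun p => weight m p * dsq m ρ logCosh p x), hz]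
      have hw : ∀ p : Fin (r + 1), weight m p.succ = wts (m 0) (Fin.tail m) p := fun p =>
        wts_succ 0 m p
      have hw0 : weight m 0 = m 0 := by
        rw [weight, Fin.cons_zero, sub_zero, ← Fin.castSucc_zero, Fin.snoc_castSucc]
      simp only [hs, hw, hw0]
      ring

lemma siteSlope_root {r : ℕ} (m : Fin r → ℝ) {ρ : Fin (r + 1) → ℝ} (h0 : ρ 0 = 0)
    (p : Fin (r + 1)) : siteSlope m ρ p = dsq m ρ logCosh p 0 := by
  show (∫ g, Vale.Agent.P157.Parisi.down m ρ logCosh p _ (Real.sqrt (ρ 0) * g) ∂gaussianReal 0 1) = _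
  simp only [h0, Real.sqrt_zero, zero_mul, integral_const, probReal_univ, one_smul]
  rfl

lemma tMean_eq_tilt (m s : ℝ) (F h : ℝ → ℝ) :
    tMean m s F (fun z => h (Real.sqrt s * z)) = tilt m s F h 0 := by
  simp only [tMean, tilt, zero_add]
  congr 1
  exact integral_congr_ae (Eventually.of_forall fun z => mul_comm _ _)

/-- Integration by parts under the tilt. -/
lemma tMean_ibp {L m s : ℝ} {F G1 G2 : ℝ → ℝ}
    (hF : Fam L (fun _ => F) (fun _ => G1) (fun _ => G2) (fun _ _ => 0)) (hm : 0 ≤ m) :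
    tMean m s F (fun z => z * G1 (Real.sqrt s * z)) =
      Real.sqrt s * tilt m s F (fun y => G2 y + m * G1 y ^ 2) 0 := by
  obtain ⟨K, c, hK, -, hw⟩ := hF.ptBound (δ := fun _ => s) hm continuous_const 0 0
  simp only [Vale.Agent.P157.Parisi.wgt, zero_add] at hw
  obtain ⟨-, hc1, hc2⟩ := hF.at_time 0
  have hL := hF.nn
  set a := Real.sqrt s
  have ha : 0 ≤ a := Real.sqrt_nonneg _
  have hQ : ∀ y, |G2 y + m * G1 y ^ 2| ≤ L + m * L ^ 2 := fun y => by
    refine (abs_add_le _ _).trans (add_le_add (hF.b2 0 y) ?_)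
    rw [abs_mul, abs_of_nonneg hm, abs_pow]
    exact mul_le_mul_of_nonneg_left (pow_le_pow_left₀ (abs_nonneg _) (hF.b1 0 y) 2) hm
  have key := Vale.Agent.P157.Parisi.Full.Deriv.ibp
    (φ := fun g => Real.exp (m * F (a * g)) * G1 (a * g))
    (φ' := fun g => a * (Real.exp (m * F (a * g)) * (G2 (a * g) + m * G1 (a * g) ^ 2)))
    (K := (L + a * (L + m * L ^ 2)) * K) (c := c) ?_ ?_ ?_ ?_
  · rw [tMean, tilt, ← mul_div_assoc, ← integral_const_mul]
    simp only [zero_add]
    congr 1
    rw [← key]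
    exact integral_congr_ae (Eventually.of_forall fun g => by ring)
  · intro g
    have hy : HasDerivAt (fun z => a * z) a g := by simpa using (hasDerivAt_id g).const_mul a
    refine ((((hF.d1 0 _).comp g hy).const_mul m).exp.mul ((hF.d2 0 _).comp g hy)).congr_deriv ?_
    simp only [Function.comp_apply]
    ring
  · have := (hF.at_time 0).1
    fun_prop
  · intro g
    rw [abs_mul, abs_of_pos (Real.exp_pos _)]
    calc _ ≤ K * Real.exp (c * |g|) * L :=
          mul_le_mul (hw g) (hF.b1 0 _) (abs_nonneg _) (by positivity)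
      _ ≤ _ := by
          nlinarith [mul_nonneg (mul_nonneg hK (Real.exp_pos (c * |g|)).le)
            (show 0 ≤ a * (L + m * L ^ 2) by positivity)]
  · intro g
    rw [abs_mul, abs_mul, abs_of_pos (Real.exp_pos _), abs_of_nonneg ha]
    calc _ ≤ a * (K * Real.exp (c * |g|) * (L + m * L ^ 2)) :=
          mul_le_mul_of_nonneg_left (mul_le_mul (hw g) (hQ _) (abs_nonneg _) (by positivity)) ha
      _ ≤ _ := by
          nlinarith [mul_nonneg (mul_nonneg hK (Real.exp_pos (c * |g|)).le) hL]

/-- One step as a function of its exponent. -/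
lemma hasDerivAt_exponent {μ s : ℝ} {F : ℝ → ℝ} (hμ : 0 < μ)
    (hF : Vale.Agent.P157.Parisi.Up.Lip1 F) :
    HasDerivAt (fun m => layer m s F 0)
      ((μ * tMean μ s F (fun z => F (Real.sqrt s * z)) -
        Real.log (∫ z, Real.exp (μ * F (Real.sqrt s * z)) ∂gaussianReal 0 1)) / μ ^ 2) μ := by
  set a := Real.sqrt s
  have ha : 0 ≤ a := Real.sqrt_nonneg _
  have hFc := hF.continuous
  have hgrow : ∀ z, |F (a * z)| ≤ |F 0| + a * |z| := fun z => by
    have h := hF (a * z) 0
    have h' := hF 0 (a * z)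
    rw [sub_zero, abs_mul, abs_of_nonneg ha] at h
    rw [zero_sub, abs_neg, abs_mul, abs_of_nonneg ha] at h'
    rw [abs_le]
    constructor <;> linarith [le_abs_self (F 0), neg_abs_le (F 0)]
  have hexp : ∀ (m z : ℝ), 0 ≤ m → m ≤ 2 * μ →
      Real.exp (m * F (a * z)) ≤ Real.exp (2 * μ * |F 0|) * Real.exp (2 * μ * a * |z|) := by
    intro m z h0 h1
    rw [← Real.exp_add]
    refine Real.exp_le_exp.2 ?_
    calc m * F (a * z) ≤ m * |F (a * z)| := mul_le_mul_of_nonneg_left (le_abs_self _) h0
      _ ≤ 2 * μ * (|F 0| + a * |z|) := mul_le_mul h1 (hgrow z) (abs_nonneg _) (by linarith)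
      _ = _ := by ring
  have hev : ∀ᶠ m in 𝓝 μ, 0 ≤ m ∧ m ≤ 2 * μ :=
    (eventually_ge_nhds hμ).and (eventually_le_nhds (by linarith))
  have hint : Integrable (fun z => Real.exp (μ * F (a * z))) (gaussianReal 0 1) :=
    ((Vale.Agent.P157.Parisi.Site.integrable_exp_abs (2 * μ * a)).const_mul _).mono'
      (Continuous.aestronglyMeasurable (by fun_prop))
      (Eventually.of_forall fun z => by
        rw [Real.norm_eq_abs, abs_of_pos (Real.exp_pos _)]
        exact hexp μ z hμ.le (by linarith))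
  obtain ⟨-, hI⟩ := hasDerivAt_integral_of_dominated_loc_of_deriv_le (μ := gaussianReal 0 1)
    (x₀ := μ) (F := fun m z => Real.exp (m * F (a * z)))
    (F' := fun m z => F (a * z) * Real.exp (m * F (a * z)))
    (bound := fun z => (|F 0| + a) * Real.exp (2 * μ * |F 0|) *
      Real.exp ((2 * μ * a + 1) * |z|)) hev
    (Eventually.of_forall fun m => Continuous.aestronglyMeasurable (by fun_prop)) hint
    (Continuous.aestronglyMeasurable (by fun_prop))
    (Eventually.of_forall fun z m hm => by
      rw [Real.norm_eq_abs, abs_mul, abs_of_pos (Real.exp_pos _), add_mul (2 * μ * a), one_mul,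
        Real.exp_add]
      have h1 : |F (a * z)| ≤ (|F 0| + a) * Real.exp |z| := by
        have e1 := Real.one_le_exp (abs_nonneg z)
        have e2 := Vale.Agent.P157.Parisi.Full.Deriv.abs_le_exp_abs z
        nlinarith [hgrow z, abs_nonneg (F 0), mul_le_mul_of_nonneg_left e2 ha,
          mul_le_mul_of_nonneg_left e1 (abs_nonneg (F 0))]
      calc _ ≤ (|F 0| + a) * Real.exp |z| *
            (Real.exp (2 * μ * |F 0|) * Real.exp (2 * μ * a * |z|)) :=
            mul_le_mul h1 (hexp m z hm.1 hm.2) (Real.exp_pos _).le (by positivity)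
        _ = _ := by ring)
    ((Vale.Agent.P157.Parisi.Site.integrable_exp_abs _).const_mul _)
    (Eventually.of_forall fun z m _ =>
      ((hasDerivAt_id m).mul_const (F (a * z))).exp.congr_deriv (by simp; ring))
  have hZ : 0 < ∫ z, Real.exp (μ * F (a * z)) ∂gaussianReal 0 1 := integral_exp_pos hint
  have h := (hI.log hZ.ne').div (hasDerivAt_id μ) hμ.ne'
  have e : (fun m => layer m s F 0) =
      fun m => Real.log (∫ z, Real.exp (m * F (a * z)) ∂gaussianReal 0 1) / m := by
    funext m
    simp only [layer, zero_add, a]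
    ring
  rw [e]
  refine h.congr_deriv ?_
  simp only [id, tMean, a]
  field_simp
  simp only [mul_comm _ μ]

end Vale.Agent.P146.Div.Min
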