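import Vale.Agent.P146.Div.Defs
import Vale.Agent.P157.Full.Concave.Main

/-!
The functional at paths with root zero, its sums by parts, and the deletion of a level.
-/

noncomputable section

open MeasureTheory ProbabilityTheory
open scoped BigOperators

namespace Vale.Agent.P146.Div.Min

open Vale.Agent.P157.Parisi (Path level layer siteValue weight level_cons_zero)
open Vale.Agent.P157.Parisi.Full (logCosh)
open Vale.Agent.P157.Parisi.Full.Concave (layer_add good_level tilt_zero_delta)

/-- Summation by parts of the weights. -/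
lemma sum_weight_mul {r : ℕ} (m : Fin r → ℝ) (f : Fin (r + 1) → ℝ) :
    ∑ p, weight m p * f p =
      f (Fin.last r) - ∑ i, m i * (f i.succ - f i.castSucc) := by
  simp only [weight, sub_mul, Finset.sum_sub_distrib, mul_sub]
  rw [Fin.sum_univ_castSucc (f := fun p => (Fin.snoc m 1 : Fin (r + 1) → ℝ) p * f p),
    Fin.sum_univ_succ (f := fun p => (Fin.cons 0 m : Fin (r + 1) → ℝ) p * f p)]
  simp only [Fin.snoc_castSucc, Fin.snoc_last, Fin.cons_zero, Fin.cons_succ]
  ring

/-- The functional at a path with root zero. -/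
def val (β : ℝ) {r : ℕ} (m : Fin r → ℝ) (q : Fin (r + 1) → ℝ) : ℝ :=
  Real.log 2 + level m (fun p => β ^ 2 * q p) logCosh 0 0 - β ^ 2 * q (Fin.last r) / 2 +
    β ^ 2 / 4 * (1 + q (Fin.last r) ^ 2 - ∑ i, m i * (q i.succ ^ 2 - q i.castSucc ^ 2))

lemma siteValue_root {r : ℕ} (m : Fin r → ℝ) {ρ : Fin (r + 1) → ℝ} (h0 : ρ 0 = 0) :
    siteValue m ρ = level m ρ logCosh 0 0 - ρ (Fin.last r) / 2 := by
  show (∫ g, level m ρ logCosh 0 (Real.sqrt (ρ 0) * g) ∂gaussianReal 0 1) - _ = _
  simp [h0]

lemma skVal_eq (β : ℝ) (ξ : Path) (h : ξ.q 0 = 0) : skVal β ξ = val β ξ.m ξ.q := by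
  rw [skVal, siteValue_root _ (by simp [h]), sum_weight_mul, val]
  ring

lemma layer_self {m : ℝ} (hm : m ≠ 0) (F : ℝ → ℝ) : layer m 0 F = F := by
  funext x
  simp [layer, hm]

/-- The weighted jumps of a function along a path. -/
def jump (f : ℝ → ℝ) {r : ℕ} (m : Fin r → ℝ) (q : Fin (r + 1) → ℝ) : ℝ :=
  ∑ i, m i * (f (q i.succ) - f (q i.castSucc))

lemma jump_cons (f : ℝ → ℝ) {r : ℕ} (m : Fin (r + 1) → ℝ) (q : Fin (r + 2) → ℝ) :
    jump f m q = m 0 * (f (q 1) - f (q 0)) + jump f (Fin.tail m) (Fin.tail q) := by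
  rw [jump, Fin.sum_univ_succ, Fin.castSucc_zero, Fin.succ_zero_eq_one]
  refine congrArg _ (Finset.sum_congr rfl fun i _ => ?_)
  rw [Fin.castSucc_succ]
  rfl

lemma succAbove_one {n : ℕ} (j : Fin (n + 1)) : j.succ.succ.succAbove (1 : Fin (n + 2)) = 1 := by
  rw [Fin.succ_succAbove_one, Fin.succ_succAbove_zero, Fin.succ_zero_eq_one]

lemma tail_succAbove {n : ℕ} {α : Type*} (g : Fin (n + 2) → α) (j : Fin (n + 1)) :
    Fin.tail (g ∘ j.succ.succAbove) = Fin.tail g ∘ j.succAbove :=
  funext fun i => congrArg g (Fin.succ_succAbove_succ j i)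

lemma tail_one {n : ℕ} {α : Type*} (g : Fin (n + 2) → α) :
    Fin.tail (g ∘ (0 : Fin (n + 1)).succ.succAbove) = Fin.tail (Fin.tail g) := by
  rw [tail_succAbove, Fin.succAbove_zero]
  rfl

/-- A step of length zero can be left out. -/
lemma del_q : ∀ {r : ℕ} (m : Fin (r + 1) → ℝ) (q : Fin (r + 2) → ℝ) (φ : ℝ → ℝ)
    (j : Fin (r + 1)), (∀ i, m i ≠ 0) → q j.castSucc = q j.succ →
      level (m ∘ j.succAbove) (q ∘ j.succ.succAbove) φ 0 = level m q φ 0 ∧
      q (j.succ.succAbove (Fin.last r)) = q (Fin.last (r + 1)) ∧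
      ∀ f : ℝ → ℝ, jump f (m ∘ j.succAbove) (q ∘ j.succ.succAbove) = jump f m q := by
  intro r
  induction r with
  | zero =>
    intro m q φ j hm h
    obtain rfl : j = 0 := Fin.eq_zero j
    have h' : q 0 = q 1 := by simpa using h
    refine ⟨?_, by simpa [Fin.last] using h', fun f => ?_⟩
    · rw [level_cons_zero m q, ← h', sub_self, layer_self (hm 0)]
      rfl
    · simp [jump, h']
  | succ r ih =>
    intro m q φ j hm h
    cases j using Fin.cases with
    | zero =>
      have h' : q 0 = q 1 := by simpa using h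
      have e : q ∘ (0 : Fin (r + 2)).succ.succAbove = Fin.tail q := by
        funext i
        cases i using Fin.cases with
        | zero => simpa [Fin.tail] using h'
        | succ i =>
          rw [Function.comp_apply, Fin.succ_succAbove_succ, Fin.succAbove_zero]
          rfl
      rw [Fin.succAbove_zero, e]
      refine ⟨?_, congrFun e (Fin.last (r + 1)) |>.trans (by rw [← Fin.succ_last]; rfl),
        fun f => ?_⟩
      · rw [level_cons_zero m q, ← h', sub_self, layer_self (hm 0)]
        rfl
      · rw [jump_cons f m q, h', sub_self, mul_zero, zero_add]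
        rfl
    | succ j =>
      obtain ⟨h1, h2, h3⟩ := ih (Fin.tail m) (Fin.tail q) φ j (fun i => hm i.succ)
        (by rw [Fin.castSucc_succ] at h; exact h)
      refine ⟨?_, by simpa [Fin.tail, ← Fin.succ_last] using h2, fun f => ?_⟩
      · rw [level_cons_zero (m ∘ j.succ.succAbove) (q ∘ j.succ.succ.succAbove), tail_succAbove,
          tail_succAbove, h1, level_cons_zero m q, Function.comp_apply, Function.comp_apply,
          Function.comp_apply, Fin.succ_succAbove_zero, Fin.succ_succAbove_zero, succAbove_one]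
      · rw [jump_cons, tail_succAbove, tail_succAbove, h3 f, jump_cons f m q,
          Function.comp_apply, Function.comp_apply, Function.comp_apply,
          Fin.succ_succAbove_zero, Fin.succ_succAbove_zero, succAbove_one]

/-- Two steps with the same exponent are one step. -/
lemma del_m : ∀ {r : ℕ} (m : Fin (r + 1) → ℝ) (q : Fin (r + 2) → ℝ) (j : Fin r),
    (∀ i, 0 < m i) → (∀ i, m i ≤ 1) → Monotone q → m j.castSucc = m j.succ →
      level (m ∘ j.succ.succAbove) (q ∘ j.castSucc.succ.succAbove) logCosh 0 =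
          level m q logCosh 0 ∧
      ∀ f : ℝ → ℝ, jump f (m ∘ j.succ.succAbove) (q ∘ j.castSucc.succ.succAbove) = jump f m q := by
  intro r
  induction r with
  | zero => exact fun _ _ j => j.elim0
  | succ r ih =>
    intro m q j hm hm1 hq h
    cases j using Fin.cases with
    | zero =>
      have h' : m 0 = m 1 := by simpa using h
      have e2 : (0 : Fin (r + 2)).succ.succAbove (1 : Fin (r + 2)) = (1 : Fin (r + 2)).succ := by
        rw [Fin.succ_succAbove_one, Fin.succAbove_zero, Fin.succ_zero_eq_one]
      rw [Fin.castSucc_zero]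
      refine ⟨?_, fun f => ?_⟩
      · rw [level_cons_zero (m ∘ _) (q ∘ _), tail_one, tail_one, level_cons_zero m q,
          level_cons_zero (Fin.tail m) (Fin.tail q), Function.comp_apply, Function.comp_apply,
          Function.comp_apply, Fin.succ_succAbove_zero, Fin.succ_succAbove_zero, e2]
        have hL := (good_level (fun i => hm i.succ.succ) (Fin.tail (Fin.tail q)) 0).lip
        show _ = layer (m 0) (q 1 - q 0) (layer (m (Fin.succ 0)) (q (Fin.succ 1) - q (Fin.succ 0)) _)
        simp only [Fin.succ_zero_eq_one]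
        rw [← h']
        refine Eq.trans ?_ (layer_add (hm 0).le (hm1 0) hL
          (sub_nonneg.2 (hq (Fin.zero_le _))) (sub_nonneg.2 (hq (Fin.one_le_of_ne_zero (Fin.succ_ne_zero _)))))
        congr 1
        ring
      · rw [jump_cons, tail_one, tail_one, jump_cons f m q, jump_cons f (Fin.tail m) (Fin.tail q),
          Function.comp_apply, Function.comp_apply, Function.comp_apply,
          Fin.succ_succAbove_zero, Fin.succ_succAbove_zero, e2]
        show _ = _ + (m (Fin.succ 0) * (f (q (Fin.succ 1)) - f (q (Fin.succ 0))) + _)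
        simp only [Fin.succ_zero_eq_one]
        rw [← h']
        ring
    | succ j =>
      obtain ⟨h1, h3⟩ := ih (Fin.tail m) (Fin.tail q) j (fun i => hm i.succ)
        (fun i => hm1 i.succ) (hq.comp Fin.strictMono_succ.monotone)
        (by rw [Fin.castSucc_succ] at h; exact h)
      have ec : j.succ.castSucc = j.castSucc.succ := Fin.castSucc_succ j
      rw [ec]
      refine ⟨?_, fun f => ?_⟩
      · rw [level_cons_zero (m ∘ _) (q ∘ _), tail_succAbove, tail_succAbove, h1,
          level_cons_zero m q, Function.comp_apply, Function.comp_apply, Function.comp_apply,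
          Fin.succ_succAbove_zero, Fin.succ_succAbove_zero, succAbove_one]
      · rw [jump_cons, tail_succAbove, tail_succAbove, h3 f, jump_cons f m q,
          Function.comp_apply, Function.comp_apply, Function.comp_apply,
          Fin.succ_succAbove_zero, Fin.succ_succAbove_zero, succAbove_one]

end Vale.Agent.P146.Div.Min
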